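import Vale.Agent.P280A30.Rows
import Vale.Agent.P299G50.Hol
import Vale.Agent.P299G11.Frm

/-!
# P280: an ample anticanonical bundle is positive (row FANO)
-/

open scoped Manifold ContDiff Topology ComplexOrder
open MvPolynomial Matrix Filter
open Vale.Agent.P272.K Vale.Agent.P285.H281.FD Vale.Agent.P300.Final Vale.Agent.P299G40
open Vale.Agent.P299.H223

namespace Vale.Agent.P280A

namespace F7

variable {n M N : ℕ}

theorem poly_cd (P : MvPolynomial (Fin M) ℂ) (u : Fin M → ℂ) :
    ContDiffAt ℂ ω (fun v : Fin M → ℂ => eval v P) u := by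
  induction P using MvPolynomial.induction_on with
  | C a => simpa using contDiffAt_const
  | add p q hp hq => simpa using hp.add hq
  | mul_X p j hp => simpa using hp.mul (contDiffAt_apply ℂ ℂ j u)

theorem euler {G : Fin N → MvPolynomial (Fin M) ℂ} {d : ℕ} (hG : ∀ j, (G j).IsHomogeneous d)
    (u : Fin M → ℂ) :
    fderiv ℂ (fun v j => eval v (G j)) u u = (d : ℂ) • fun j => eval u (G j) := by
  have h0 : DifferentiableAt ℂ (fun v j => eval v (G j)) ((1 : ℂ) • u) :=
    (contDiffAt_pi.2 fun j => poly_cd (G j) _).differentiableAt (by simp)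
  have h1 := h0.hasFDerivAt.comp_hasDerivAt (1 : ℂ) ((hasDerivAt_id (1 : ℂ)).smul_const u)
  have h2 := (hasDerivAt_pow d (1 : ℂ)).smul_const fun j => eval u (G j)
  have e : ((fun v j => eval v (G j)) ∘ fun t : ℂ => id t • u) =
      fun t : ℂ => t ^ d • fun j => eval u (G j) := by
    ext t j
    exact P009.AV.H532.eval_smul' (hG j) t u
  rw [e] at h1
  simpa using h1.unique h2

/-- a map to a projective space with a left inverse given by forms is an immersion -/
theorem imm {F : Cm n → Fin M → ℂ} {σ : Cm n → Fin N → ℂ} {z : Cm n}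
    {G : Fin N → MvPolynomial (Fin M) ℂ} {d : ℕ} (hG : ∀ j, (G j).IsHomogeneous d)
    (hF : ContDiffAt ℂ ω F z) (hσ : ContDiffAt ℂ ω σ z) (h0 : σ z ≠ 0)
    (hi : ∀ (v : Cm n) (c : ℂ), fderiv ℂ σ z v = c • σ z → v = 0)
    (hT : (fun j => eval (F z) (G j)) ≠ 0)
    (h : ∀ᶠ y in 𝓝 z, ∃ c : ℂ, c • σ y = fun j => eval (F y) (G j))
    (v : Cm n) (c : ℂ) (hv : fderiv ℂ F z v = c • F z) : v = 0 := by
  have hP : ContDiffAt ℂ ω (fun v j => eval v (G j)) (F z) := contDiffAt_pi.2 fun j => poly_cd _ _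
  have hc : ContDiffAt ℂ ω (fun y j => eval (F y) (G j)) z := hP.comp z hF
  have e : fderiv ℂ (fun y j => eval (F y) (G j)) z v = (c * d) • fun j => eval (F z) (G j) := by
    have := fderiv_comp z (hP.differentiableAt (by simp)) (hF.differentiableAt (by simp))
    refine (congrArg (fun L => L v) this).trans ?_
    rw [ContinuousLinearMap.comp_apply, hv, map_smul, euler hG, smul_smul]
  have p := fsM_posDef hσ h0 hi
  rw [← fsM_congr hc hσ hT h0 h] at p
  by_contra hne
  have q := p.dotProduct_mulVec_pos (x := star v) (by simpa using hne)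
  rw [fsM_quad hc hT, star_star, e] at q
  have hn : ((nsq fun j => eval (F z) (G j) : ℝ) : ℂ) ≠ 0 := by exact_mod_cast (nsq_pos hT).ne'
  have : (fun i => ((c * d) • fun j => eval (F z) (G j)) i -
      (∑ i, ((c * d) • fun j => eval (F z) (G j)) i * cj (eval (F z) (G i))) /
        ((nsq fun j => eval (F z) (G j) : ℝ) : ℂ) * eval (F z) (G i)) = 0 := by
    ext i
    simp only [Pi.smul_apply, smul_eq_mul, mul_assoc, ← Finset.mul_sum, Pi.zero_apply]
    rw [← nsq_cast fun j => eval (F z) (G j)]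
    field_simp
    ring
  rw [this, nsq_eq_zero.2 rfl] at q
  simp at q

end F7

open F7 in
theorem fano7 : FANO := by
  intro n N Z X _ hc _ _ Φ ⟨hZ, m, M, g, ψ, W, hm, hg, hψ, _, _, hW, φ, hφ, _, hinv⟩ hA
  choose s hs hr using fun k => P299G50.hol P299G11.frm n N Z X Φ hZ hA m (g k) (hg k)
  have hZ' : ∀ x, Φ x ∈ Z := fun x => hA.2.2 ▸ Set.mem_range_self x
  have a : ∀ (e : Chart n X) x, At e x → ∃ h : (fun k => s k e (e x)) ≠ 0,
      ψ (Φ x) = Projectivization.mk ℂ (fun k => s k e (e x)) h := by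
    intro e x h
    obtain ⟨-, -, i, J, hd⟩ := P299G11.frm n N Z X Φ hZ hA e x h
    obtain ⟨h1, h2⟩ := hψ i J _ hd
    have e1 : jac Φ e i J x ^ m • (fun k => s k e (e x)) = fun k => g k i J (Φ x) :=
      funext fun k => by rw [hr k e x i J h hd, mul_comm]; rfl
    refine ⟨fun h0 => h1 (by rw [← e1, h0, smul_zero]), ?_⟩
    rw [h2]
    exact (Projectivization.mk_eq_mk_iff' ℂ _ _ _ _).2 ⟨_, e1⟩
  have cd : ∀ (i e : Chart n X) x, At i x → At e x →
      ContDiffAt ℂ ω (fun z k => s k i (i (e.symm z))) (e x) := fun i e x hi he =>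
    contDiffAt_pi.2 fun k => ContDiffAt.comp (g := s k i) (e x)
      (by rw [he.left_inv]; exact ((hs k).holomorphic i x hi).contDiffAt) (transition he hi)
  have nz : ∀ (i e : Chart n X) x, At i x → At e x →
      (fun z k => s k i (i (e.symm z))) (e x) ≠ 0 := fun i e x hi he => by
    simp only [he.left_inv]; exact (a i x hi).1
  have hm' : (0 : ℝ) < (m : ℝ)⁻¹ := by positivity
  refine ⟨hc, fun (i : Chart n X) x => (m : ℝ)⁻¹ * Real.log (nsq fun k => s k i (i x)),
    ⟨fun (i : Chart n X) e x he hi =>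
      contDiffAt_const.mul (smooth_log_nsq (cd i e x hi he) (nz i e x hi he)),
      fun (i j : Chart n X) x (hi : At i x) (hj : At j x) => ?_⟩,
    fun (i : Chart n X) e x he (hi : At i x) => ?_⟩
  · have e1 : (fun k => s k j (j x)) = (jacM i j x).det ^ m • fun k => s k i (i x) :=
      funext fun k => by rw [← (hs k).change i j x hi hj, mul_comm]; rfl
    have hd : (jacM i j x).det ≠ 0 := fun h0 =>
      (a j x hj).1 (by rw [e1, h0, zero_pow hm.ne', zero_smul])
    change _ = _ + Real.log (‖((jacM i j x).det)⁻¹‖ ^ 2)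
    rw [e1, nsq_smul, Real.log_mul (by simpa using fun h => absurd h hd) (nsq_pos (a i x hi).1).ne',
      norm_pow, norm_inv, Real.log_pow, Real.log_pow, Real.log_pow, Real.log_inv]
    have : (m : ℝ) ≠ 0 := by positivity
    field_simp
    ring
  · obtain ⟨G, d, hG, h0, hφ'⟩ := hφ _ (hW (hZ' x))
    obtain ⟨U, σ, hx, L⟩ := exists_isLift hA.2.1 x
    have key : ∀ y, At i y → ∃ c : ℂ, c ≠ 0 ∧
        (fun j => eval (fun k => s k i (i y)) (G j)) = c • val G (ψ (Φ y)) := fun y hy => by
      obtain ⟨h1, h2⟩ := a i y hy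
      obtain ⟨c, hc⟩ := Projectivization.exists_smul_eq_mk_rep ℂ _ h1
      refine ⟨(c⁻¹ : ℂˣ) ^ d, pow_ne_zero _ (Units.ne_zero _), funext fun j => ?_⟩
      rw [Pi.smul_apply, smul_eq_mul, val, ← P009.AV.H532.eval_smul' (hG j), h2, ← hc, ← Units.smul_def,
        inv_smul_smul]
    have hT : (fun j => eval ((fun z k => s k i (i (e.symm z))) (e x)) (G j)) ≠ 0 := by
      obtain ⟨c, h1, h2⟩ := key x hi
      simp only [he.left_inv]
      rw [h2]
      exact smul_ne_zero h1 h0
    have hcT : ContinuousAt (fun z j => eval (fun k => s k i (i (e.symm z))) (G j)) (e x) :=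
      ((contDiffAt_pi.2 fun j => poly_cd (G j) _).comp (e x) (cd i e x hi he)).continuousAt
    have hU : ∀ᶠ z in 𝓝 (e x), e.symm z ∈ U := (e.continuousAt_symm he.mem_target).eventually
      (by rw [he.left_inv]; exact L.isOpen.mem_nhds hx)
    have p := fsM_posDef (cd i e x hi he) (nz i e x hi he) (imm (σ := fun z => σ (e.symm z)) hG
      (cd i e x hi he) (L.holo x hx e he) (by simp only [he.left_inv]; exact L.ne x hx)
      (by simp only [he.left_inv]; exact L.imm x hx e he) hT (by
        filter_upwards [he.nhds_at hi, hU, hcT.eventually_ne hT] with z h1 h2 h3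
        obtain ⟨c, -, e2⟩ := key _ h1.2.2
        have h4 : val G (ψ (Φ (e.symm z))) ≠ 0 := fun h => h3 (by rw [e2, h, smul_zero])
        have h5 := hφ' _ (hW (hZ' _)) h4
        rw [hinv.1 (hZ' _)] at h5
        obtain ⟨b, hb⟩ := (Projectivization.mk_eq_mk_iff' ℂ _ _ _ _).1 (h5.symm.trans (L.eq _ h2))
        exact ⟨c * b, by rw [e2, mul_smul, hb]⟩))
    rw [cHess_const_mul _ ((smooth_log_nsq (cd i e x hi he) (nz i e x hi he)).of_le
      (by exact WithTop.coe_le_coe.2 le_top))]
    exact p.smul (by exact_mod_cast hm')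

end Vale.Agent.P280A
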